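import Mathlib

/-!
P054: zeros of a nondegenerate real bilinear form in a box of integer vectors.
-/

namespace Vale.Agent.P054.Lattice

open Finset
open scoped RealInnerProductSpace

variable {d : ℕ}

/-- The box `[-T, T] ^ n`. -/
noncomputable def box (n T : ℕ) : Finset (Fin n → ℤ) := Fintype.piFinset fun _ => Icc (-(T : ℤ)) T

/-- The largest absolute value of a coordinate. -/
noncomputable def height (v : Fin d → ℤ) : ℕ := univ.sup fun i => (v i).natAbs

/-- The greatest common divisor of the coordinates. -/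
noncomputable def gcdv (v : Fin d → ℤ) : ℕ := univ.gcd fun i => (v i).natAbs

theorem mem_box {n T : ℕ} {v : Fin n → ℤ} : v ∈ box n T ↔ height v ≤ T := by
  simp only [box, height, Fintype.mem_piFinset, mem_Icc, Finset.sup_le_iff, mem_univ, true_implies]
  exact forall_congr' fun i => by omega

theorem natAbs_le_height (v : Fin d → ℤ) (i : Fin d) : (v i).natAbs ≤ height v :=
  le_sup (f := fun i => (v i).natAbs) (mem_univ i)

theorem card_box (n T : ℕ) : (box n T).card = (2 * T + 1) ^ n := by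
  simp [box, Fintype.card_piFinset, Int.card_Icc,
    show ((T : ℤ) + 1 + (T : ℤ)).toNat = 2 * T + 1 by omega]

theorem card_box_le (n : ℕ) {T : ℕ} (hT : 1 ≤ T) : ((box n T).card : ℝ) ≤ 3 ^ n * (T : ℝ) ^ n := by
  rw [card_box, ← mul_pow]
  have : (1 : ℝ) ≤ T := by exact_mod_cast hT
  push_cast
  exact pow_le_pow_left₀ (by positivity) (by linarith) n

theorem gcdv_dvd (v : Fin d → ℤ) (i : Fin d) : (gcdv v : ℤ) ∣ v i :=
  Int.natCast_dvd.2 (Finset.gcd_dvd (f := fun i => (v i).natAbs) (mem_univ i))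

theorem exists_ne_of_gcdv {p : Fin d → ℤ} (hp : gcdv p = 1) : ∃ i, p i ≠ 0 := by
  by_contra hc
  push Not at hc
  have h0 : gcdv p = 0 := Finset.gcd_eq_zero_iff.2 fun j _ => by simp [hc j]
  omega

theorem exists_prim {v : Fin d → ℤ} (hv : v ≠ 0) :
    ∃ (g : ℕ) (p : Fin d → ℤ), 1 ≤ g ∧ gcdv p = 1 ∧ p ≠ 0 ∧ ∀ i, v i = g * p i := by
  obtain ⟨i, hi⟩ := Function.ne_iff.1 hv
  have hi' : v i ≠ 0 := hi
  have hg : gcdv v ≠ 0 := fun h => hi' (by simpa [h] using gcdv_dvd v i)
  choose p hp using gcdv_dvd v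
  refine ⟨gcdv v, p, Nat.one_le_iff_ne_zero.2 hg, ?_, fun h => hi' (by simp [hp i, h]), hp⟩
  have h : gcdv v * gcdv p = gcdv v * 1 := by
    conv_rhs => rw [mul_one]
    conv_lhs => rw [gcdv, gcdv, ← normalize_eq (univ.gcd fun i => (v i).natAbs), ← Finset.gcd_mul_left]
    refine Finset.gcd_congr rfl fun j _ => ?_
    conv_rhs => rw [hp j, Int.natAbs_mul, Int.natAbs_natCast]
    rfl
  exact Nat.eq_of_mul_eq_mul_left (Nat.pos_of_ne_zero hg) h

/-- Parallel primitive vectors agree up to sign. -/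
theorem prim_parallel {p q : Fin d → ℤ} (hp : gcdv p = 1) (hq : gcdv q = 1) (i : Fin d)
    (hi : p i ≠ 0) (h : ∀ j, p i * q j = q i * p j) : q = p ∨ q = -p := by
  have e : (p i).natAbs = (q i).natAbs := by
    have h1 : univ.gcd (fun j => (p i).natAbs * (q j).natAbs) =
        univ.gcd (fun j => (q i).natAbs * (p j).natAbs) :=
      Finset.gcd_congr rfl fun j _ => by rw [← Int.natAbs_mul, ← Int.natAbs_mul, h j]
    rw [Finset.gcd_mul_left, Finset.gcd_mul_left] at h1
    change normalize (p i).natAbs * gcdv q = normalize (q i).natAbs * gcdv p at h1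
    simpa [hp, hq] using h1
  rcases Int.natAbs_eq_natAbs_iff.1 e with h' | h'
  · exact Or.inl (funext fun j => mul_left_cancel₀ hi (by rw [h j, ← h']))
  · refine Or.inr (funext fun j => mul_left_cancel₀ hi ?_)
    rw [h j, Pi.neg_apply, h']
    ring

/-- Solutions of a congruence in a symmetric interval. -/
theorem card_congr_le {M : ℕ} (hM : M ≠ 0) (a m : ℤ) (T : ℕ) :
    (((Icc (-(T : ℤ)) T).filter fun v => (M : ℤ) ∣ a * v - m).card : ℝ) ≤
      2 * T * (Int.gcd a M : ℝ) / M + 1 := by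
  set g := Int.gcd a M
  have hgM : g ∣ M := by exact_mod_cast Int.gcd_dvd_right a M
  have hg : g ≠ 0 := fun h => hM (Nat.eq_zero_of_zero_dvd (h ▸ hgM))
  set q := M / g
  have hqg : q * g = M := Nat.div_mul_cancel hgM
  have hq : 0 < q := Nat.div_pos (Nat.le_of_dvd (by omega) hgM) (by omega)
  have hcard : ((Icc (-(T : ℤ)) T).filter fun v => (M : ℤ) ∣ a * v - m).card
      ≤ (range (2 * T / q + 1)).card := by
    refine card_le_card_of_injOn (fun v => (v + T).toNat / q) (fun v hv => ?_) ?_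
    · simp only [mem_coe, mem_filter, mem_Icc] at hv
      simp only [mem_coe, mem_range, Nat.lt_succ_iff]
      exact Nat.div_le_div_right (by omega)
    intro v hv w hw hvw
    simp only [mem_coe, mem_filter, mem_Icc] at hv hw
    simp only at hvw
    have hd : (M : ℤ) ∣ a * (v - w) := by
      have := dvd_sub hv.2 hw.2
      rwa [show a * v - m - (a * w - m) = a * (v - w) by ring] at this
    have hq' : (q : ℤ) ∣ v - w := by
      obtain ⟨x, y, hxy⟩ : ∃ x y : ℤ, (g : ℤ) = a * x + M * y :=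
        ⟨_, _, Int.gcd_eq_gcd_ab a M⟩
      have h1 : (M : ℤ) ∣ (g : ℤ) * (v - w) := by
        rw [hxy, add_mul]
        exact dvd_add (by rw [show a * x * (v - w) = x * (a * (v - w)) by ring]
                          exact hd.mul_left x) ⟨y * (v - w), by ring⟩
      rw [← hqg, Nat.cast_mul, mul_comm (q : ℤ)] at h1
      exact Int.dvd_of_mul_dvd_mul_left (by exact_mod_cast hg) h1
    have hv' := Nat.div_add_mod (v + T).toNat q
    have hw' := Nat.div_add_mod (w + T).toNat q
    rw [hvw] at hv'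
    have hlt1 := Nat.mod_lt (v + T).toNat hq
    have hlt2 := Nat.mod_lt (w + T).toNat hq
    have := Int.eq_zero_of_abs_lt_dvd hq' (abs_lt.2 ⟨by omega, by omega⟩)
    omega
  rw [card_range] at hcard
  have h2 : ((2 * T / q : ℕ) : ℝ) ≤ 2 * T * (g : ℝ) / M := by
    refine Nat.cast_div_le.trans (le_of_eq ?_)
    rw [← hqg]
    have : (g : ℝ) ≠ 0 := by exact_mod_cast hg
    push_cast
    field_simp
  have h3 : (((Icc (-(T : ℤ)) T).filter fun v => (M : ℤ) ∣ a * v - m).card : ℝ)
      ≤ ((2 * T / q : ℕ) : ℝ) + 1 := by exact_mod_cast hcard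
  linarith

/-- Solutions of a linear congruence in a box. -/
theorem card_cong_box {T : ℕ} (hT : 1 ≤ T) :
    ∀ (n : ℕ) (a : Fin n → ℤ) {M : ℕ}, M ≠ 0 → ∀ c : ℤ,
      (((box n T).filter fun z => (M : ℤ) ∣ ∑ i, a i * z i - c).card : ℝ) ≤
        4 ^ n * ((T : ℝ) ^ n * (Nat.gcd (gcdv a) M : ℝ) / M + n * (T : ℝ) ^ (n - 1)) := by
  intro n
  induction n with
  | zero =>
    intro a M hM c
    have hg : gcdv a = 0 := by simp [gcdv]
    have h0 : (((box 0 T).filter fun z => (M : ℤ) ∣ ∑ i, a i * z i - c).card : ℝ) ≤ 1 := by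
      exact_mod_cast card_le_one.2 fun x _ y _ => Subsingleton.elim x y
    refine h0.trans (le_of_eq ?_)
    simp [hg, hM]
  | succ n ih =>
    intro a M hM c
    set a' := Fin.tail a
    set g := Nat.gcd (gcdv a') M
    have hg : g ≠ 0 := Nat.gcd_ne_zero_right hM
    set h := Int.gcd (a 0) g
    have hhg : h ∣ g := by exact_mod_cast Int.gcd_dvd_right (a 0) g
    have hh : h ∣ Nat.gcd (gcdv a) M := by
      refine Nat.dvd_gcd (Finset.dvd_gcd fun i _ => ?_) (hhg.trans (Nat.gcd_dvd_right _ _))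
      induction i using Fin.cases with
      | zero => exact Int.natCast_dvd.1 (Int.gcd_dvd_left (a 0) g)
      | succ j =>
        have e : gcdv a' ∣ (a' j).natAbs :=
          Finset.gcd_dvd (f := fun i => (a' i).natAbs) (mem_univ j)
        exact (hhg.trans (Nat.gcd_dvd_left _ _)).trans e
    set A := (Icc (-(T : ℤ)) T).filter fun z0 => (g : ℤ) ∣ a 0 * z0 - c
    have hcard : ((box (n + 1) T).filter fun z => (M : ℤ) ∣ ∑ i, a i * z i - c).card ≤
        ∑ z0 ∈ A, ((box n T).filter fun z => (M : ℤ) ∣ ∑ i, a' i * z i - (c - a 0 * z0)).card := by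
      rw [← card_sigma]
      refine card_le_card_of_injOn (fun z => ⟨z 0, Fin.tail z⟩) (fun z hz => ?_) ?_
      · simp only [mem_coe, mem_filter, box, Fintype.mem_piFinset, Fin.sum_univ_succ] at hz
        simp only [A, mem_coe, mem_sigma, mem_filter, box, Fintype.mem_piFinset]
        have e : (M : ℤ) ∣ ∑ i, a' i * Fin.tail z i - (c - a 0 * z 0) := by
          convert hz.2 using 1
          simp only [a', Fin.tail]; ring
        refine ⟨⟨hz.1 0, ?_⟩, fun i => hz.1 i.succ, e⟩
        have e1 : (g : ℤ) ∣ ∑ i, a' i * Fin.tail z i :=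
          dvd_sum fun i _ => ((Int.natCast_dvd_natCast.2 (Nat.gcd_dvd_left _ _)).trans
            (gcdv_dvd a' i)).mul_right _
        have e2 := dvd_sub ((Int.natCast_dvd_natCast.2 (Nat.gcd_dvd_right (gcdv a') M)).trans e) e1
        rwa [show ∑ i, a' i * Fin.tail z i - (c - a 0 * z 0) - ∑ i, a' i * Fin.tail z i =
          a 0 * z 0 - c by ring] at e2
      · intro z _ w _ hzw
        simp only [Sigma.mk.injEq, heq_eq_eq] at hzw
        rw [← Fin.cons_self_tail z, hzw.1, hzw.2, Fin.cons_self_tail]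
    have hT' : (1 : ℝ) ≤ T := by exact_mod_cast hT
    have hMR : (0 : ℝ) < M := by exact_mod_cast Nat.pos_of_ne_zero hM
    have hgR : (0 : ℝ) < g := by exact_mod_cast Nat.pos_of_ne_zero hg
    have hgM : (g : ℝ) ≤ M := by
      exact_mod_cast Nat.le_of_dvd (Nat.pos_of_ne_zero hM) (Nat.gcd_dvd_right _ _)
    have hhg' : (h : ℝ) ≤ g := by exact_mod_cast Nat.le_of_dvd (Nat.pos_of_ne_zero hg) hhg
    have hhG : (h : ℝ) ≤ Nat.gcd (gcdv a) M := by
      exact_mod_cast Nat.le_of_dvd (Nat.pos_of_ne_zero (Nat.gcd_ne_zero_right hM)) hh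
    have hn : (n : ℝ) * ((T : ℝ) ^ (n - 1) * T) = n * (T : ℝ) ^ n := by
      rcases Nat.eq_zero_or_pos n with rfl | hn
      · simp
      · rw [← pow_succ, Nat.sub_add_cancel hn]
    calc (((box (n + 1) T).filter fun z => (M : ℤ) ∣ ∑ i, a i * z i - c).card : ℝ)
        ≤ ∑ z0 ∈ A, (((box n T).filter fun z =>
            (M : ℤ) ∣ ∑ i, a' i * z i - (c - a 0 * z0)).card : ℝ) := by exact_mod_cast hcard
      _ ≤ ∑ _z0 ∈ A, 4 ^ n * ((T : ℝ) ^ n * g / M + n * (T : ℝ) ^ (n - 1)) :=
          sum_le_sum fun z0 _ => ih a' hM _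
      _ ≤ (2 * T * h / g + 1) * (4 ^ n * ((T : ℝ) ^ n * g / M + n * (T : ℝ) ^ (n - 1))) := by
          rw [sum_const, nsmul_eq_mul]
          exact mul_le_mul_of_nonneg_right (card_congr_le hg (a 0) c T) (by positivity)
      _ = 4 ^ n * (2 * (T : ℝ) ^ (n + 1) * (h / M) + (T : ℝ) ^ n * (g / M)
            + 2 * ((n : ℝ) * ((T : ℝ) ^ (n - 1) * T)) * (h / g) + n * (T : ℝ) ^ (n - 1) * 1) := by
          field_simp
          ring
      _ ≤ 4 ^ n * (2 * (T : ℝ) ^ (n + 1) * (Nat.gcd (gcdv a) M / M) + (T : ℝ) ^ n * 1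
            + 2 * ((n : ℝ) * (T : ℝ) ^ n) * 1 + n * (T : ℝ) ^ (n - 1) * T) := by
          rw [hn]
          gcongr
          · rwa [div_le_one hMR]
          · rwa [div_le_one hgR]
      _ ≤ _ := by
          rw [mul_assoc (n : ℝ) _ (T : ℝ), hn, pow_succ (4 : ℝ) n, mul_assoc ((4 : ℝ) ^ n),
            Nat.add_sub_cancel]
          refine mul_le_mul_of_nonneg_left ?_ (by positivity)
          push_cast
          have h1 : 0 ≤ (T : ℝ) ^ (n + 1) * (Nat.gcd (gcdv a) M / M) := by positivity
          have h2 : 0 ≤ (T : ℝ) ^ n := by positivity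
          have h3 : 0 ≤ (n : ℝ) * (T : ℝ) ^ n := by positivity
          rw [mul_div_assoc]
          nlinarith

/-- Integer points of the box on a hyperplane with primitive normal `m`. -/
theorem card_plane_le {T : ℕ} (hT : 1 ≤ T) {n : ℕ} (m : Fin (n + 1) → ℤ) (hm : gcdv m = 1) :
    (((box (n + 1) T).filter fun u => ∑ i, m i * u i = 0).card : ℝ) ≤
      4 ^ n * ((T : ℝ) ^ n / height m + n * (T : ℝ) ^ (n - 1)) := by
  obtain ⟨i, -, hi⟩ := exists_mem_eq_sup univ univ_nonempty fun i => (m i).natAbs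
  have hM : (m i).natAbs ≠ 0 := fun h0 => by
    have : gcdv m = 0 := Finset.gcd_eq_zero_iff.2 fun j _ =>
      Nat.le_zero.1 ((natAbs_le_height m j).trans (hi.trans h0).le)
    omega
  set a : Fin n → ℤ := fun j => m (i.succAbove j)
  have hg : Nat.gcd (gcdv a) (m i).natAbs = 1 := by
    refine Nat.eq_one_of_dvd_one (hm ▸ Finset.dvd_gcd fun j _ => ?_)
    obtain rfl | ⟨l, rfl⟩ := Fin.eq_self_or_eq_succAbove i j
    · exact Nat.gcd_dvd_right _ _
    · exact (Nat.gcd_dvd_left _ _).trans (Finset.gcd_dvd (f := fun j => (a j).natAbs) (mem_univ l))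
  have h1 : ((box (n + 1) T).filter fun u => ∑ i, m i * u i = 0).card ≤
      ((box n T).filter fun z => ((m i).natAbs : ℤ) ∣ ∑ l, a l * z l - 0).card := by
    refine card_le_card_of_injOn (fun u l => u (i.succAbove l)) (fun u hu => ?_) ?_
    · simp only [mem_coe, mem_filter, box, Fintype.mem_piFinset, Fin.sum_univ_succAbove _ i] at hu
      simp only [mem_coe, mem_filter, box, Fintype.mem_piFinset, sub_zero, a]
      exact ⟨fun l => hu.1 _, Int.natAbs_dvd.2 ⟨-u i, by linarith [hu.2]⟩⟩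
    · intro u hu w hw huw
      simp only [mem_coe, mem_filter, Fin.sum_univ_succAbove _ i] at hu hw
      have hl : ∀ l, u (i.succAbove l) = w (i.succAbove l) := congrFun huw
      simp only [hl] at hu
      funext j
      obtain rfl | ⟨l, rfl⟩ := Fin.eq_self_or_eq_succAbove i j
      · exact mul_left_cancel₀ (a := m j) (fun h0 => hM (by simp [h0])) (by linarith [hu.2, hw.2])
      · exact hl l
  refine (Nat.cast_le.2 h1).trans ((card_cong_box hT n a hM 0).trans (le_of_eq ?_))
  rw [hg, show height m = (m i).natAbs from hi]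
  simp

theorem card_shell {r : ℕ} (hr : 1 ≤ r) (R : ℕ) {n : ℕ} :
    (((box (n + 1) R).filter fun w => height w = r).card : ℝ) ≤
      2 * (n + 1) * 3 ^ n * (r : ℝ) ^ n := by
  classical
  have h : ((box (n + 1) R).filter fun w => height w = r).card ≤
      ((univ : Finset (Fin (n + 1))) ×ˢ (univ : Finset Bool) ×ˢ box n r).card := by
    set f : (Fin (n + 1)) × Bool × (Fin n → ℤ) → (Fin (n + 1) → ℤ) :=
      fun x => x.1.insertNth (if x.2.1 then (r : ℤ) else -r) x.2.2
    refine le_trans (card_le_card (t := (univ ×ˢ univ ×ˢ box n r).image f) fun w hw => ?_) card_image_le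
    rw [mem_filter] at hw
    obtain ⟨i, -, hi⟩ := exists_mem_eq_sup univ univ_nonempty fun i => (w i).natAbs
    rw [mem_image]
    refine ⟨(i, decide (0 ≤ w i), fun l => w (i.succAbove l)),
      mem_product.2 ⟨mem_univ _, mem_product.2 ⟨mem_univ _, mem_box.2 (Finset.sup_le fun l _ => ?_)⟩⟩, ?_⟩
    · exact hw.2 ▸ natAbs_le_height w _
    · simp only [f, decide_eq_true_eq]
      funext j
      obtain rfl | ⟨l, rfl⟩ := Fin.eq_self_or_eq_succAbove i j
      · have : (w j).natAbs = r := hi.symm.trans hw.2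
        simp only [Fin.insertNth_apply_same]
        split_ifs <;> omega
      · simp
  refine (Nat.cast_le.2 h).trans ?_
  simp only [card_product, card_univ, Fintype.card_fin, Fintype.card_bool]
  push_cast
  calc ((n : ℝ) + 1) * (2 * (box n r).card) ≤ ((n : ℝ) + 1) * (2 * (3 ^ n * (r : ℝ) ^ n)) := by
        gcongr; exact card_box_le n hr
    _ = _ := by ring

/-- The sum of `height ^ (-2)` over a box. -/
theorem sum_inv_height_sq {n : ℕ} (hn : 2 ≤ n) (R : ℕ) :
    ∑ w ∈ (box (n + 1) R).filter (fun w => w ≠ 0), (1 : ℝ) / (height w : ℝ) ^ 2 ≤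
      2 * (n + 1) * 3 ^ n * (R : ℝ) ^ (n - 1) := by
  have hmap : ∀ w ∈ (box (n + 1) R).filter (fun w => w ≠ 0), height w ∈ Icc 1 R := fun w hw => by
    simp only [mem_filter, mem_box, mem_Icc] at hw ⊢
    refine ⟨Nat.one_le_iff_ne_zero.2 fun h => hw.2 (funext fun i => ?_), hw.1⟩
    have h' := natAbs_le_height w i
    exact Int.natAbs_eq_zero.1 (by omega)
  rw [← sum_fiberwise_of_maps_to hmap]
  calc ∑ r ∈ Icc 1 R, ∑ w ∈ ((box (n + 1) R).filter (fun w => w ≠ 0)).filter
        (fun w => height w = r), (1 : ℝ) / (height w : ℝ) ^ 2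
      ≤ ∑ r ∈ Icc 1 R, 2 * (n + 1) * 3 ^ n * (R : ℝ) ^ (n - 2) := by
        refine sum_le_sum fun r hr => ?_
        rw [mem_Icc] at hr
        rw [sum_congr rfl (g := fun _ => (1 : ℝ) / (r : ℝ) ^ 2)
          (fun w hw => by rw [(mem_filter.1 hw).2]), sum_const, nsmul_eq_mul]
        have h1 := (Nat.cast_le (α := ℝ)).2 (card_le_card (filter_subset_filter
          (fun w => height w = r) (filter_subset (fun w => w ≠ 0) (box (n + 1) R))))
        have hr0 : (r : ℝ) ≠ 0 := by exact_mod_cast (show r ≠ 0 by omega)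
        refine (mul_le_mul_of_nonneg_right (h1.trans (card_shell hr.1 R)) (by positivity)).trans ?_
        calc 2 * ((n : ℝ) + 1) * 3 ^ n * (r : ℝ) ^ n * (1 / (r : ℝ) ^ 2)
            = 2 * ((n : ℝ) + 1) * 3 ^ n * (r : ℝ) ^ (n - 2) := by
              conv_lhs => rw [show n = n - 2 + 2 by omega, pow_add (r : ℝ)]
              rw [show n - 2 + 2 = n by omega]
              field_simp
          _ ≤ _ := by gcongr; exact_mod_cast hr.2
    _ = _ := by
        rw [sum_const, Nat.card_Icc, Nat.add_sub_cancel, nsmul_eq_mul,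
          show n - 1 = n - 2 + 1 by omega, pow_succ]
        ring

variable {E : Type*} [NormedAddCommGroup E] [InnerProductSpace ℝ E]

/-- The point of the lattice with coordinates `v`. -/
noncomputable def vec (e : Fin d → E) (v : Fin d → ℤ) : E := ∑ i, (v i : ℝ) • e i

/-- Pairs of orthogonal lattice vectors in a box: at most `C T ^ (2 d - 2)`, uniformly in `e`. -/
theorem card_orth_le {n : ℕ} (hn : 2 ≤ n) {T : ℕ} (hT : 1 ≤ T) (e : Fin (n + 1) → E)
    (he : LinearIndependent ℝ e) :
    (((box (n + 1) T ×ˢ box (n + 1) T).filter fun p => ⟪vec e p.1, vec e p.2⟫ = 0).card : ℝ) ≤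
      20 * (n + 1) * 36 ^ n * (T : ℝ) ^ (2 * n) := by
  classical
  set B := box (n + 1) T
  set w : (Fin (n + 1) → ℤ) → Fin (n + 1) → ℝ := fun v i => ⟪e i, vec e v⟫
  have hdot : ∀ u v, ⟪vec e u, vec e v⟫ = ∑ i, (u i : ℝ) * w v i := fun u v => by
    simp only [w, vec, sum_inner, real_inner_smul_left]
  -- a vanishing combination of the functionals forces a vanishing combination of the vectors
  have hker : ∀ (a b : ℝ) p q, (∀ i, a * w p i = b * w q i) →
      ∀ i, a * (p i : ℝ) = b * (q i : ℝ) := by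
    intro a b p q h
    have hx : ∑ i, (a * (p i : ℝ) - b * (q i : ℝ)) • e i = a • vec e p - b • vec e q := by
      simp only [vec, smul_sum, ← sum_sub_distrib, smul_smul, sub_smul]
    have h0 : ∀ i, ⟪e i, a • vec e p - b • vec e q⟫ = 0 := fun i => by
      rw [inner_sub_right, real_inner_smul_right, real_inner_smul_right]
      exact sub_eq_zero.2 (h i)
    have hz : ∑ i, (a * (p i : ℝ) - b * (q i : ℝ)) • e i = 0 := by
      have h1 : ⟪∑ i, (a * (p i : ℝ) - b * (q i : ℝ)) • e i, a • vec e p - b • vec e q⟫ = (0 : ℝ) := by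
        simp [sum_inner, real_inner_smul_left, h0]
      rw [← hx] at h1
      exact inner_self_eq_zero.1 h1
    intro i
    exact sub_eq_zero.1 (Fintype.linearIndependent_iff.1 he _ hz i)
  have hw0 : ∀ v, v ≠ 0 → w v ≠ 0 := fun v hv h => hv (funext fun i => by
    have := hker 1 0 v 0 (fun j => by simp [h]) i
    simpa using this)
  -- rational lines
  set R : (Fin (n + 1) → ℤ) → Prop := fun p =>
    ∃ m : Fin (n + 1) → ℤ, gcdv m = 1 ∧ ∃ c : ℝ, c ≠ 0 ∧ ∀ i, w p i = c * m i
  set M : (Fin (n + 1) → ℤ) → (Fin (n + 1) → ℤ) := fun p => if h : R p then h.choose else 0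
  set P := B.filter fun p => gcdv p = 1 ∧ R p
  have hMp : ∀ p, R p → gcdv (M p) = 1 ∧ ∃ c : ℝ, c ≠ 0 ∧ ∀ i, w p i = c * M p i := fun p h => by
    simp only [M, dif_pos h]; exact h.choose_spec
  have hMne : ∀ p, R p → M p ≠ 0 := fun p h h0 => by
    obtain ⟨i, hi⟩ := exists_ne_of_gcdv (hMp p h).1
    simp [h0] at hi
  have hfib : ∀ m, (P.filter fun p => M p = m).card ≤ 2 := by
    intro m
    rcases (P.filter fun p => M p = m).eq_empty_or_nonempty with h | ⟨p, hp⟩
    · simp [h]
    simp only [P, mem_filter] at hp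
    refine (card_le_card fun q hq => ?_).trans (card_le_two (a := p) (b := -p))
    simp only [P, mem_filter] at hq
    obtain ⟨cp, hcp, hp'⟩ := (hMp p hp.1.2.2).2
    obtain ⟨cq, hcq, hq'⟩ := (hMp q hq.1.2.2).2
    have h := hker cq cp p q fun i => by rw [hp', hq', hp.2, hq.2]; ring
    obtain ⟨i, hi⟩ := exists_ne_of_gcdv hp.1.2.1
    have := prim_parallel hp.1.2.1 hq.1.2.1 i hi fun j => by
      have h2 : cp * ((p i * q j : ℤ) : ℝ) = cp * ((q i * p j : ℤ) : ℝ) := by
        push_cast
        linear_combination (p j : ℝ) * h i - (p i : ℝ) * h j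
      exact_mod_cast mul_left_cancel₀ hcp h2
    simpa using this
  -- the weighted count of rational lines
  have hT' : (1 : ℝ) ≤ T := by exact_mod_cast hT
  have hBc : (B.card : ℝ) ≤ 3 ^ (n + 1) * (T : ℝ) ^ (n + 1) := card_box_le (n + 1) hT
  set S : ℝ := 2 * (n + 1) * 3 ^ n * (T : ℝ) ^ (n - 1)
  have hnT : (T : ℝ) ^ (n + 1) = (T : ℝ) ^ (n - 1) * (T : ℝ) ^ 2 := by
    rw [← pow_add]; congr 1; omega
  have hM2 : ∑ p ∈ P, (1 : ℝ) / (height (M p) : ℝ) ^ 2 ≤
      2 * S + 3 ^ (n + 1) * (T : ℝ) ^ (n - 1) := by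
    rw [← sum_filter_add_sum_filter_not P (fun p => height (M p) ≤ T)]
    gcongr
    · rw [← sum_fiberwise_of_maps_to (t := B.filter fun m => m ≠ 0) (g := M) (fun p hp => by
        simp only [P, mem_filter] at hp
        exact mem_filter.2 ⟨mem_box.2 hp.2, hMne p hp.1.2.2⟩)]
      calc ∑ m ∈ B.filter (fun m => m ≠ 0), ∑ p ∈ (P.filter fun p => height (M p) ≤ T).filter
            (fun p => M p = m), (1 : ℝ) / (height (M p) : ℝ) ^ 2
          ≤ ∑ m ∈ B.filter (fun m => m ≠ 0), 2 * ((1 : ℝ) / (height m : ℝ) ^ 2) := by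
            refine sum_le_sum fun m _ => ?_
            rw [sum_congr rfl (g := fun _ => (1 : ℝ) / (height m : ℝ) ^ 2)
              (fun p hp => by rw [(mem_filter.1 hp).2]), sum_const, nsmul_eq_mul]
            refine mul_le_mul_of_nonneg_right ?_ (by positivity)
            exact_mod_cast (card_le_card (filter_subset_filter _ (filter_subset _ _))).trans (hfib m)
        _ ≤ 2 * S := by
            rw [← mul_sum]
            exact mul_le_mul_of_nonneg_left (sum_inv_height_sq hn T) zero_le_two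
    · calc ∑ p ∈ P.filter (fun p => ¬height (M p) ≤ T), (1 : ℝ) / (height (M p) : ℝ) ^ 2
          ≤ ∑ _p ∈ P.filter (fun p => ¬height (M p) ≤ T), (1 : ℝ) / (T : ℝ) ^ 2 :=
            sum_le_sum fun p hp => by
              gcongr
              exact le_of_lt (not_le.1 (mem_filter.1 hp).2)
        _ ≤ (B.card : ℝ) * (1 / (T : ℝ) ^ 2) := by
            rw [sum_const, nsmul_eq_mul]
            refine mul_le_mul_of_nonneg_right ?_ (by positivity)
            exact_mod_cast card_le_card ((filter_subset _ _).trans (filter_subset _ _))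
        _ ≤ 3 ^ (n + 1) * (T : ℝ) ^ (n + 1) * (1 / (T : ℝ) ^ 2) := by gcongr
        _ = _ := by rw [hnT]; field_simp
  have hP2 : ∑ p ∈ P, (1 : ℝ) / (height p : ℝ) ^ 2 ≤ S := by
    refine le_trans (sum_le_sum_of_subset_of_nonneg (fun p hp => ?_) fun _ _ _ => by positivity)
      (sum_inv_height_sq hn T)
    simp only [P, mem_filter] at hp
    exact mem_filter.2 ⟨hp.1, fun h0 => by
      obtain ⟨i, hi⟩ := exists_ne_of_gcdv hp.2.1
      simp [h0] at hi⟩
  set A : ℝ := ∑ x ∈ P ×ˢ Icc 1 T,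
    if x.2 * height x.1 ≤ T then (1 : ℝ) / height (M x.1) else 0
  have hA : A ≤ T * (3 * S + 3 ^ (n + 1) * (T : ℝ) ^ (n - 1)) := by
    calc A = ∑ p ∈ P, ∑ k ∈ Icc 1 T, if k * height p ≤ T then (1 : ℝ) / height (M p) else 0 :=
          sum_product _ _ _
      _ ≤ ∑ p ∈ P, (T : ℝ) * ((1 : ℝ) / (height p : ℝ) ^ 2 + 1 / (height (M p) : ℝ) ^ 2) := by
          refine sum_le_sum fun p hp => ?_
          simp only [P, mem_filter] at hp
          rw [← sum_filter, sum_const, nsmul_eq_mul]
          have hp0 : 0 < height p := Nat.pos_of_ne_zero fun h0 => by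
            have : gcdv p = 0 := Finset.gcd_eq_zero_iff.2 fun j _ =>
              Nat.le_zero.1 (h0 ▸ natAbs_le_height p j)
            omega
          have hc : ((Icc 1 T).filter fun k => k * height p ≤ T).card ≤ T / height p := by
            refine (card_le_card fun k hk => ?_).trans (by simp : (Icc 1 (T / height p)).card ≤ _)
            simp only [mem_filter, mem_Icc] at hk ⊢
            exact ⟨hk.1.1, (Nat.le_div_iff_mul_le hp0).2 hk.2⟩
          have hc' := ((Nat.cast_le (α := ℝ)).2 hc).trans Nat.cast_div_le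
          refine (mul_le_mul_of_nonneg_right hc' (by positivity)).trans ?_
          set a : ℝ := 1 / height p
          set b : ℝ := 1 / height (M p)
          have ea : (1 : ℝ) / (height p : ℝ) ^ 2 = a ^ 2 := by simp [a]
          have eb : (1 : ℝ) / (height (M p) : ℝ) ^ 2 = b ^ 2 := by simp [b]
          rw [ea, eb, show (T : ℝ) / height p = T * a by simp [a, div_eq_mul_inv], mul_assoc]
          gcongr
          nlinarith [sq_nonneg (a - b), sq_nonneg (a + b)]
      _ ≤ _ := by
          rw [← mul_sum, sum_add_distrib]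
          exact mul_le_mul_of_nonneg_left (by linarith only [hP2, hM2]) (by positivity)
  -- the count at a nonzero `v`
  set F : (Fin (n + 1) → ℤ) → ℝ := fun v => ((B.filter fun u => ∑ i, (u i : ℝ) * w v i = 0).card : ℝ)
  set T1 : ℝ := 4 ^ n * (n + 1) * (T : ℝ) ^ (n - 1)
  have hv : ∀ v ∈ B.filter (fun v => v ≠ 0), F v ≤ T1 + 4 ^ n * (T : ℝ) ^ n *
      ∑ x ∈ (P ×ˢ Icc 1 T).filter (fun x => ∀ i, v i = (x.2 : ℤ) * x.1 i),
        (if x.2 * height x.1 ≤ T then (1 : ℝ) / height (M x.1) else 0) := by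
    intro v hv
    rw [mem_filter] at hv
    obtain ⟨g, p, hg, hp1, hp0, hgp⟩ := exists_prim hv.2
    have hvp : ∀ i, w v i = g * w p i := fun i => by
      simp only [w, vec, inner_sum, real_inner_smul_right, hgp, mul_sum]
      push_cast
      exact sum_congr rfl fun j _ => by ring
    have hsum0 : 0 ≤ ∑ x ∈ (P ×ˢ Icc 1 T).filter (fun x => ∀ i, v i = (x.2 : ℤ) * x.1 i),
        (if x.2 * height x.1 ≤ T then (1 : ℝ) / height (M x.1) else 0) :=
      sum_nonneg fun x _ => by split_ifs <;> positivity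
    have hF : F v ≤ ((B.filter fun u => ∑ i, (u i : ℝ) * w p i = 0).card : ℝ) := by
      refine Nat.cast_le.2 (card_le_card fun u hu => ?_)
      rw [mem_filter] at hu ⊢
      refine ⟨hu.1, ?_⟩
      have h2 := hu.2
      simp only [hvp, mul_left_comm _ (g : ℝ), ← mul_sum] at h2
      exact (mul_eq_zero.1 h2).resolve_left (by exact_mod_cast (show g ≠ 0 by omega))
    refine hF.trans ?_
    by_cases hR : R p
    · obtain ⟨hm1, c, hc, hmc⟩ := hMp p hR
      have hcard : ((B.filter fun u => ∑ i, (u i : ℝ) * w p i = 0).card : ℝ) ≤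
          4 ^ n * ((T : ℝ) ^ n / height (M p) + n * (T : ℝ) ^ (n - 1)) := by
        refine le_trans (Nat.cast_le.2 (card_le_card fun u hu => ?_)) (card_plane_le hT (M p) hm1)
        rw [mem_filter] at hu ⊢
        refine ⟨hu.1, ?_⟩
        have h2 := hu.2
        simp only [hmc, mul_left_comm _ c, ← mul_sum] at h2
        have h3 : ∑ i, ((u i : ℝ) * M p i) = 0 := (mul_eq_zero.1 h2).resolve_left hc
        simp only [← Int.cast_mul, ← Int.cast_sum, Int.cast_eq_zero] at h3
        simpa [mul_comm] using h3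
      have hh : g * height p ≤ T := by
        have e1 : g * height p = height v := by
          simp only [height, hgp, Int.natAbs_mul, Int.natAbs_natCast]
          exact Finset.apply_sup_eq_sup_comp (fun x : ℕ => g * x) (fun x y => mul_max g x y)
            (mul_zero g)
        exact e1 ▸ mem_box.1 hv.1
      have hp_pos : 1 ≤ height p := Nat.one_le_iff_ne_zero.2 fun h0 => hp0 (funext fun i =>
        Int.natAbs_eq_zero.1 (Nat.le_zero.1 (h0 ▸ natAbs_le_height p i)))
      have hgT : g ≤ T := le_trans (Nat.le_mul_of_pos_right g hp_pos) hh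
      have hpB : p ∈ B := mem_box.2 (le_trans (Nat.le_mul_of_pos_left _ hg) hh)
      refine hcard.trans ?_
      have hmem : (p, g) ∈ (P ×ˢ Icc 1 T).filter (fun x => ∀ i, v i = (x.2 : ℤ) * x.1 i) := by
        simp only [P, mem_filter, mem_product, mem_Icc]
        exact ⟨⟨⟨hpB, hp1, hR⟩, hg, hgT⟩, hgp⟩
      have hle := single_le_sum (f := fun x : (Fin (n + 1) → ℤ) × ℕ =>
        if x.2 * height x.1 ≤ T then (1 : ℝ) / height (M x.1) else 0)
        (fun x _ => by split_ifs <;> positivity) hmem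
      simp only [if_pos hh] at hle
      calc 4 ^ n * ((T : ℝ) ^ n / height (M p) + n * (T : ℝ) ^ (n - 1))
          = 4 ^ n * n * (T : ℝ) ^ (n - 1) + 4 ^ n * (T : ℝ) ^ n * (1 / height (M p)) := by ring
        _ ≤ _ := by simp only [T1]; gcongr; linarith
    -- an irrational ratio
    refine le_add_of_le_of_nonneg ?_ (mul_nonneg (by positivity) hsum0)
    obtain ⟨i, hi⟩ := Function.ne_iff.1 (hw0 p hp0)
    obtain ⟨j, hj⟩ : ∃ j, ∀ q : ℚ, w p j ≠ q * w p i := by
      by_contra hc
      push Not at hc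
      choose q hq using hc
      set D := ∏ j, (q j).den
      have hD : D ≠ 0 := prod_ne_zero_iff.2 fun j _ => (q j).den_nz
      have hz : ∀ j, ∃ z : ℤ, (D : ℝ) * (q j : ℝ) = z := fun j => by
        obtain ⟨k, hk⟩ := dvd_prod_of_mem (fun j => (q j).den) (mem_univ j)
        refine ⟨k * (q j).num, ?_⟩
        rw [show D = (q j).den * k from hk, Rat.cast_def]
        have : ((q j).den : ℝ) ≠ 0 := by exact_mod_cast (q j).den_nz
        push_cast
        field_simp
      choose z hz using hz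
      have hzi : z ≠ 0 := fun h0 => by
        have := hz i
        rw [h0] at this
        simp [hD] at this
        exact hi (by rw [hq i, this]; simp)
      obtain ⟨g', m, hg', hm1, -, hzm⟩ := exists_prim hzi
      refine hR ⟨m, hm1, w p i * g' / D, ?_, fun j => ?_⟩
      · have : (g' : ℝ) ≠ 0 := by exact_mod_cast (show g' ≠ 0 by omega)
        have : (D : ℝ) ≠ 0 := by exact_mod_cast hD
        exact div_ne_zero (mul_ne_zero hi (by assumption)) (by assumption)
      · have e2 := hz j
        rw [hzm j] at e2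
        push_cast at e2
        have : (D : ℝ) ≠ 0 := by exact_mod_cast hD
        rw [hq j]
        field_simp
        linear_combination w p i * e2
    have hij : j ≠ i := fun h0 => hj 1 (by simp [h0])
    obtain ⟨l, rfl⟩ := Fin.exists_succAbove_eq hij
    obtain ⟨k, rfl⟩ : ∃ k, n = k + 1 := ⟨n - 1, by omega⟩
    have hcard : ((B.filter fun u => ∑ i, (u i : ℝ) * w p i = 0).card) ≤ (box k T).card := by
      refine card_le_card_of_injOn (fun u s => u (i.succAbove (l.succAbove s))) (fun u hu => ?_) ?_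
      · simp only [mem_coe, mem_filter, B, box, Fintype.mem_piFinset] at hu ⊢
        exact fun s => hu.1 _
      · intro u hu u' hu' huu
        simp only [mem_coe, mem_filter, Fin.sum_univ_succAbove _ i,
          Fin.sum_univ_succAbove _ l] at hu hu'
        have hs : ∀ s, u (i.succAbove (l.succAbove s)) = u' (i.succAbove (l.succAbove s)) :=
          congrFun huu
        simp only [hs] at hu
        have e3 : ((u i - u' i : ℤ) : ℝ) * w p i +
            ((u (i.succAbove l) - u' (i.succAbove l) : ℤ) : ℝ) * w p (i.succAbove l) = 0 := by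
          push_cast; linarith [hu.2, hu'.2]
        have hl : u (i.succAbove l) - u' (i.succAbove l) = 0 := by
          by_contra h0
          refine hj (-((u i - u' i : ℤ) : ℚ) / (u (i.succAbove l) - u' (i.succAbove l) : ℤ)) ?_
          have h0' : ((u (i.succAbove l) - u' (i.succAbove l) : ℤ) : ℝ) ≠ 0 := by exact_mod_cast h0
          push_cast at h0' e3 ⊢
          rw [div_mul_eq_mul_div, eq_div_iff h0']
          linear_combination e3
        rw [hl] at e3
        simp only [Int.cast_zero, zero_mul, add_zero, mul_eq_zero, Int.cast_eq_zero] at e3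
        funext s
        obtain rfl | ⟨s, rfl⟩ := Fin.eq_self_or_eq_succAbove i s
        · exact sub_eq_zero.1 (e3.resolve_right hi)
        obtain rfl | ⟨r, rfl⟩ := Fin.eq_self_or_eq_succAbove l s
        · exact sub_eq_zero.1 hl
        · exact hs r
    refine ((Nat.cast_le.2 hcard).trans (card_box_le k hT)).trans ?_
    simp only [T1, Nat.add_sub_cancel]
    gcongr
    calc (3 : ℝ) ^ k ≤ 4 ^ k * 1 := by rw [mul_one]; gcongr; norm_num
      _ ≤ 4 ^ (k + 1) * ((k + 1 : ℕ) + 1) := by
        gcongr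
        · norm_num
        · omega
        · push_cast; linarith [(k.cast_nonneg : (0 : ℝ) ≤ k)]
  -- assembly
  have h0B : (0 : Fin (n + 1) → ℤ) ∈ B := mem_box.2 (by simp [height])
  have hsplit : (((B ×ˢ B).filter fun p => ⟪vec e p.1, vec e p.2⟫ = 0).card : ℝ) ≤ ∑ v ∈ B, F v := by
    have : ((B ×ˢ B).filter fun p => ⟪vec e p.1, vec e p.2⟫ = 0).card
        ≤ ∑ v ∈ B, (B.filter fun u => ∑ i, (u i : ℝ) * w v i = 0).card := by
      rw [← card_sigma]
      refine card_le_card_of_injOn (fun p => ⟨p.2, p.1⟩) (fun p hp => ?_) ?_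
      · simp only [mem_coe, mem_filter, mem_product] at hp
        simp only [mem_coe, mem_sigma, mem_filter, ← hdot]
        exact ⟨hp.1.2, hp.1.1, hp.2⟩
      · rintro ⟨_, _⟩ _ ⟨_, _⟩ _ hpq
        simp at hpq
        simp [hpq]
    simpa only [F, Nat.cast_sum] using (Nat.cast_le (α := ℝ)).2 this
  have hne : ∑ v ∈ B.filter (fun v => v ≠ 0), F v ≤ B.card * T1 + 4 ^ n * (T : ℝ) ^ n * A := by
    refine (sum_le_sum hv).trans ?_
    rw [sum_add_distrib, sum_const, nsmul_eq_mul, ← mul_sum]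
    gcongr
    · exact_mod_cast filter_subset _ _
    · simp only [sum_filter (s := P ×ˢ Icc 1 T)]
      rw [sum_comm]
      refine sum_le_sum fun x _ => ?_
      rw [← sum_filter, sum_const, nsmul_eq_mul]
      refine mul_le_of_le_one_left (by split_ifs <;> positivity) ?_
      exact_mod_cast card_le_one.2 fun a ha b hb => funext fun i => by
        rw [(mem_filter.1 ha).2 i, (mem_filter.1 hb).2 i]
  have he0 : B.erase 0 = B.filter (fun u => u ≠ 0) := by ext; simp [and_comm]
  refine hsplit.trans ?_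
  rw [← add_sum_erase _ _ h0B, he0]
  have hF0 : F 0 ≤ 3 ^ (n + 1) * (T : ℝ) ^ (n + 1) :=
    le_trans (by simp only [F]; exact_mod_cast card_filter_le _ _) hBc
  set Z : ℝ := (T : ℝ) ^ (2 * n)
  have e1 : (T : ℝ) ^ (n + 1) * (T : ℝ) ^ (n - 1) = Z := by rw [← pow_add]; congr 1; omega
  have e2 : (T : ℝ) ^ n * ((T : ℝ) * (T : ℝ) ^ (n - 1)) = Z := by
    rw [← pow_succ', ← pow_add]; congr 1; omega
  have e3 : (T : ℝ) ^ (n + 1) ≤ Z := pow_le_pow_right₀ hT' (by omega)
  calc F 0 + ∑ v ∈ B.filter (fun v => v ≠ 0), F v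
      ≤ 3 ^ (n + 1) * (T : ℝ) ^ (n + 1) + (3 ^ (n + 1) * (T : ℝ) ^ (n + 1) * T1 +
          4 ^ n * (T : ℝ) ^ n * (T * (3 * S + 3 ^ (n + 1) * (T : ℝ) ^ (n - 1)))) := by
        refine add_le_add hF0 (hne.trans ?_)
        gcongr
    _ = 3 * 3 ^ n * (T : ℝ) ^ (n + 1) + (3 * (n + 1) * (3 * 4) ^ n *
          ((T : ℝ) ^ (n + 1) * (T : ℝ) ^ (n - 1)) + (6 * (n + 1) + 3) * (4 * 3) ^ n *
          ((T : ℝ) ^ n * ((T : ℝ) * (T : ℝ) ^ (n - 1)))) := by
        simp only [T1, S, pow_succ (3 : ℝ), mul_pow]; ring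
    _ ≤ _ := by
        rw [e1, e2]
        have h3 : (3 : ℝ) ^ n ≤ 36 ^ n := pow_le_pow_left₀ (by norm_num) (by norm_num) n
        have h12 : (12 : ℝ) ^ n ≤ 36 ^ n := pow_le_pow_left₀ (by norm_num) (by norm_num) n
        have hn0 : (0 : ℝ) ≤ n := n.cast_nonneg
        have hZ : 0 ≤ Z := by positivity
        norm_num
        calc 3 * (3 : ℝ) ^ n * (T : ℝ) ^ (n + 1) + (3 * ((n : ℝ) + 1) * 12 ^ n * Z +
              (6 * ((n : ℝ) + 1) + 3) * 12 ^ n * Z)
            ≤ 3 * 36 ^ n * Z + (3 * ((n : ℝ) + 1) * 36 ^ n * Z +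
              (6 * ((n : ℝ) + 1) + 3) * 36 ^ n * Z) := by gcongr
          _ ≤ _ := by
            have : 0 ≤ (36 : ℝ) ^ n * Z := by positivity
            nlinarith

end Vale.Agent.P054.Lattice
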