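import Vale.Agent.P054.Lattice

/-!
P054: pinned distinct distances of a subset of a lattice box.
-/

namespace Vale.Agent.P054.Lattice

open Finset
open scoped RealInnerProductSpace

variable {E : Type*} [NormedAddCommGroup E] [InnerProductSpace ℝ E]

theorem pinned_count {n : ℕ} (hn : 2 ≤ n) {t : ℕ} (a : E) (e : Fin (n + 1) → E)
    (he : LinearIndependent ℝ e) (f : (Fin (n + 1) → Fin t) → E)
    (hf : ∀ k, f k = a + vec e fun i => ((k i : ℕ) : ℤ))
    (K : Finset (Fin (n + 1) → Fin t)) {p : Fin (n + 1) → Fin t} (hp : p ∈ K) (hK : 2 ≤ K.card) :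
    (K.card : ℝ) ^ 2 ≤ 4 * (20 * (n + 1) * 144 ^ n) * (t : ℝ) ^ (2 * n) *
      ((K.erase p).image fun k => dist (f k) (f p)).card := by
  classical
  have ht : 1 ≤ t := by
    have := (p 0).isLt
    omega
  set D := K.erase p
  set g := fun k => dist (f k) (f p)
  set V := D.image g
  set P := (D ×ˢ D).filter fun q => g q.1 = g q.2
  have hP : (P.card : ℝ) ≤ 20 * (n + 1) * 36 ^ n * ((2 * t : ℕ) : ℝ) ^ (2 * n) := by
    refine le_trans ?_ (card_orth_le hn (T := 2 * t) (by omega) e he)
    refine Nat.cast_le.2 (card_le_card_of_injOn (fun q => (fun i => ((q.1 i : ℕ) : ℤ) - (q.2 i : ℕ),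
      fun i => ((q.1 i : ℕ) : ℤ) + (q.2 i : ℕ) - 2 * (p i : ℕ))) (fun q hq => ?_) ?_)
    · simp only [P, mem_coe, mem_filter, mem_product] at hq
      simp only [mem_coe, mem_filter, mem_product, box, Fintype.mem_piFinset, mem_Icc]
      refine ⟨⟨fun i => ?_, fun i => ?_⟩, ?_⟩
      · have h1 := (q.1 i).isLt
        have h2 := (q.2 i).isLt
        omega
      · have h1 := (q.1 i).isLt
        have h2 := (q.2 i).isLt
        have h3 := (p i).isLt
        omega
      · have h := hq.2
        simp only [g, dist_eq_norm, hf] at h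
        rw [add_sub_add_left_eq_sub, add_sub_add_left_eq_sub] at h
        set A := vec e (fun i => ((q.1 i : ℕ) : ℤ)) - vec e fun i => ((p i : ℕ) : ℤ) with hA
        set B := vec e (fun i => ((q.2 i : ℕ) : ℤ)) - vec e fun i => ((p i : ℕ) : ℤ) with hB
        have e1 : vec e (fun i => ((q.1 i : ℕ) : ℤ) + (q.2 i : ℕ) - 2 * (p i : ℕ)) = A + B := by
          simp only [hA, hB, vec, ← sum_sub_distrib, ← sum_add_distrib]
          exact sum_congr rfl fun i _ => by push_cast; module
        have e2 : vec e (fun i => ((q.1 i : ℕ) : ℤ) - (q.2 i : ℕ)) = A - B := by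
          simp only [hA, hB, vec, ← sum_sub_distrib]
          exact sum_congr rfl fun i _ => by push_cast; module
        rw [e1, e2, real_inner_comm]
        exact (real_inner_add_sub_eq_zero_iff _ _).2 h
    · intro q _ r _ hqr
      simp only [Prod.mk.injEq] at hqr
      refine Prod.ext (funext fun i => Fin.ext ?_) (funext fun i => Fin.ext ?_) <;>
        · have h1 := congrFun hqr.1 i
          have h2 := congrFun hqr.2 i
          omega
  have hmaps : ∀ k ∈ D, g k ∈ V := fun k hk => mem_image_of_mem _ hk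
  have hD : (D.card : ℝ) = ∑ v ∈ V, ((D.filter fun k => g k = v).card : ℝ) := by
    exact_mod_cast card_eq_sum_card_fiberwise hmaps
  have hPsum : ∑ v ∈ V, ((D.filter fun k => g k = v).card : ℝ) ^ 2 ≤ P.card := by
    have : ∑ v ∈ V, ((D.filter fun k => g k = v).card) ^ 2 ≤ P.card := by
      rw [sum_congr rfl fun v _ => show (D.filter fun k => g k = v).card ^ 2 =
        ((D.filter fun k => g k = v) ×ˢ (D.filter fun k => g k = v)).card by
          rw [card_product, _root_.sq], ← card_sigma]
      refine card_le_card_of_injOn (fun x => x.2) (fun x hx => ?_) ?_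
      · simp only [mem_coe, mem_sigma, mem_product, mem_filter] at hx
        simp only [P, mem_coe, mem_filter, mem_product]
        exact ⟨⟨hx.2.1.1, hx.2.2.1⟩, hx.2.1.2.trans hx.2.2.2.symm⟩
      · rintro ⟨v, x⟩ hx ⟨w, y⟩ hy hxy
        simp only [mem_coe, mem_sigma, mem_product, mem_filter] at hx hy
        simp only at hxy
        subst hxy
        rw [show v = w from hx.2.1.2.symm.trans hy.2.1.2]
    exact_mod_cast this
  have hcs := sq_sum_le_card_mul_sum_sq (s := V)
    (f := fun v => ((D.filter fun k => g k = v).card : ℝ))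
  rw [← hD] at hcs
  have hKD : (K.card : ℝ) ≤ 2 * D.card := by
    have := card_erase_add_one hp
    have h2 : K.card ≤ 2 * D.card := by simp only [D]; omega
    exact_mod_cast h2
  calc (K.card : ℝ) ^ 2 ≤ (2 * D.card) ^ 2 := by gcongr
    _ = 4 * (D.card : ℝ) ^ 2 := by ring
    _ ≤ 4 * (V.card * (P.card : ℝ)) := by
      gcongr
      exact hcs.trans (mul_le_mul_of_nonneg_left hPsum (Nat.cast_nonneg _))
    _ ≤ 4 * (V.card * (20 * (n + 1) * 36 ^ n * ((2 * t : ℕ) : ℝ) ^ (2 * n))) := by gcongr
    _ = _ := by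
      push_cast
      rw [mul_pow, pow_mul (2 : ℝ) 2 n, show ((2 : ℝ) ^ 2) = 4 by norm_num,
        show (144 : ℝ) = 36 * 4 by norm_num, mul_pow (36 : ℝ)]
      ring

end Vale.Agent.P054.Lattice
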